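import Vale.Agent.Lib.P262.Stay

/-!
From the walk predicate `Stay` to signed partial sums indexed by `Fin N`.
-/

namespace Vale.Agent.Lib.P262

open Finset

namespace H32

/-- filtered sum over `Fin N` as a range sum -/
theorem sum_fin_filter_range {M : Type*} [AddCommMonoid M] (N k : ℕ) (hk : k ≤ N) (f : ℕ → M) :
    ∑ i : Fin N with i.val < k, f i = ∑ i ∈ range k, f i := by
  rw [Finset.sum_filter, Fin.sum_univ_eq_sum_range (fun i => if i < k then f i else 0) N,
    ← Finset.sum_filter]
  apply Finset.sum_congr _ (fun _ _ => rfl)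
  ext i
  simp only [Finset.mem_filter, Finset.mem_range]
  omega

/-- If all signed partial sums along `l` (signs given by `s`) started at `x` lie in `P`,
then the walk stays in `P`. -/
theorem stay_of_signs {E : Type*} [AddCommGroup E] [Module ℝ E] (P : E → Prop) :
    ∀ (l : List E) (x : E) (s : ℕ → ℝ), (∀ i, s i = 1 ∨ s i = -1) →
      (∀ k, k ≤ l.length → P (x + ∑ i ∈ range k, s i • l.getD i 0)) → Stay P l x
  | [], x, s, _, h => by
    have h0 := h 0 (le_refl _)
    rw [Finset.sum_range_zero, add_zero] at h0
    exact h0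
  | v :: l, x, s, hs, h => by
    have h0 := h 0 (Nat.zero_le _)
    rw [Finset.sum_range_zero, add_zero] at h0
    refine ⟨h0, ?_⟩
    have key : ∀ k, k ≤ l.length →
        P ((x + s 0 • v) + ∑ i ∈ range k, s (i + 1) • l.getD i 0) := by
      intro k hk
      have h1 := h (k + 1) (by rw [List.length_cons]; exact Nat.succ_le_succ hk)
      rw [Finset.sum_range_succ'] at h1
      simp only [List.getD_cons_succ, List.getD_cons_zero] at h1
      rw [add_assoc, add_comm (s 0 • v)]
      exact h1
    rcases hs 0 with hs0 | hs0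
    · left
      rw [hs0, one_smul] at key
      exact stay_of_signs P l (x + v) (fun i => s (i + 1)) (fun i => hs (i + 1)) key
    · right
      rw [hs0, neg_one_smul, ← sub_eq_add_neg] at key
      exact stay_of_signs P l (x - v) (fun i => s (i + 1)) (fun i => hs (i + 1)) key

end H32

/-- If no walk along `l` stays within distance `R` of any centre, then the steps of `l`,
indexed by `Fin l.length`, force every signed sequence of partial sums to leave every ball
of radius `R`. -/
theorem forced_of_kills {E : Type*} [NormedAddCommGroup E] [NormedSpace ℝ E] (l : List E) (R : ℝ)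
    (hl : ∀ v ∈ l, ‖v‖ ≤ 1)
    (hkill : ∀ c x : E, ¬ Stay (fun z => ‖z - c‖ ≤ R) l x) :
    ∃ (N : ℕ) (v : Fin N → E), (∀ i, ‖v i‖ ≤ 1) ∧
      ∀ ε : Fin N → ℝ, (∀ i, ε i = 1 ∨ ε i = -1) → ∀ c : E,
        ∃ k, k ≤ N ∧ R < ‖(∑ i : Fin N with i.val < k, ε i • v i) - c‖ := by
  refine ⟨l.length, fun i => l.get i, fun i => hl _ (List.get_mem l i), ?_⟩
  intro ε hε c
  by_contra hcon
  apply hkill c 0
  apply H32.stay_of_signs (fun z => ‖z - c‖ ≤ R) l 0
    (fun n => if h : n < l.length then ε ⟨n, h⟩ else 1)
  · intro i
    by_cases h : i < l.length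
    · rw [dif_pos h]
      exact hε _
    · rw [dif_neg h]
      exact Or.inl rfl
  · intro k hk
    rw [zero_add]
    by_contra hgt
    rw [not_le] at hgt
    apply hcon
    refine ⟨k, hk, ?_⟩
    have key : ∑ i : Fin l.length with i.val < k, ε i • l.get i =
        ∑ i ∈ range k, (if h : i < l.length then ε ⟨i, h⟩ else 1) • l.getD i 0 := by
      rw [← H32.sum_fin_filter_range l.length k hk
        (fun i => (if h : i < l.length then ε ⟨i, h⟩ else 1) • l.getD i 0)]
      apply Finset.sum_congr rfl
      intro i _
      rw [dif_pos i.isLt, List.getD_eq_getElem l 0 i.isLt]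
      rfl
    rw [key]
    exact hgt

end Vale.Agent.Lib.P262
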