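import Vale.Agent.Lib.P262.Stay

/-!
Euclidean assembly of the product construction: a planar list of steps that leaves every
disc of squared radius `ρ2` gives, in dimension `d ≥ 2k`, a list of steps that leaves every
ball of squared radius `k * ρ2`.
-/

namespace Vale.Agent.Lib.P262

open Finset

namespace H32

variable {d : ℕ}

/-- coordinate `n` of `z` (zero beyond the dimension) -/
noncomputable def co (z : EuclideanSpace ℝ (Fin d)) (n : ℕ) : ℝ :=
  if h : n < d then z ⟨n, h⟩ else 0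

lemma co_add (z w : EuclideanSpace ℝ (Fin d)) (n : ℕ) : co (z + w) n = co z n + co w n := by
  unfold co
  by_cases h : n < d
  · rw [dif_pos h, dif_pos h, dif_pos h]
    rfl
  · rw [dif_neg h, dif_neg h, dif_neg h, add_zero]

lemma co_sub (z w : EuclideanSpace ℝ (Fin d)) (n : ℕ) : co (z - w) n = co z n - co w n := by
  unfold co
  by_cases h : n < d
  · rw [dif_pos h, dif_pos h, dif_pos h]
    rfl
  · rw [dif_neg h, dif_neg h, dif_neg h, sub_zero]

lemma co_fin (z : EuclideanSpace ℝ (Fin d)) (i : Fin d) : co z i.val = z i := by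
  unfold co
  rw [dif_pos i.isLt]

lemma norm_sq_eq (z : EuclideanSpace ℝ (Fin d)) : ‖z‖ ^ 2 = ∑ n ∈ range d, co z n ^ 2 := by
  rw [EuclideanSpace.real_norm_sq_eq, ← Fin.sum_univ_eq_sum_range (fun n => co z n ^ 2) d]
  refine Finset.sum_congr rfl (fun i _ => ?_)
  rw [co_fin]

/-- embedding of the plane into the coordinates `2j`, `2j+1` -/
noncomputable def emb (j : ℕ) (p : ℝ × ℝ) : EuclideanSpace ℝ (Fin d) :=
  WithLp.toLp 2 (fun i : Fin d =>
    if i.val = 2 * j then p.1 else if i.val = 2 * j + 1 then p.2 else 0)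

lemma co_emb (j : ℕ) (p : ℝ × ℝ) (n : ℕ) (hn : n < d) :
    co (emb (d := d) j p) n = if n = 2 * j then p.1 else if n = 2 * j + 1 then p.2 else 0 := by
  unfold co emb
  rw [dif_pos hn]

lemma co_emb_of_ne (j : ℕ) (p : ℝ × ℝ) (n : ℕ) (h1 : n ≠ 2 * j) (h2 : n ≠ 2 * j + 1) :
    co (emb (d := d) j p) n = 0 := by
  by_cases hn : n < d
  · rw [co_emb j p n hn, if_neg h1, if_neg h2]
  · unfold co
    rw [dif_neg hn]

lemma co_emb_fst (j : ℕ) (p : ℝ × ℝ) (h : 2 * j + 1 < d) :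
    co (emb (d := d) j p) (2 * j) = p.1 := by
  rw [co_emb j p _ (by omega), if_pos rfl]

lemma co_emb_snd (j : ℕ) (p : ℝ × ℝ) (h : 2 * j + 1 < d) :
    co (emb (d := d) j p) (2 * j + 1) = p.2 := by
  rw [co_emb j p _ h, if_neg (by omega), if_pos rfl]

lemma norm_emb_le (j : ℕ) (p : ℝ × ℝ) (h : 2 * j + 1 < d) (hp : p.1 ^ 2 + p.2 ^ 2 ≤ 1) :
    ‖emb (d := d) j p‖ ≤ 1 := by
  have h1 : ‖emb (d := d) j p‖ ^ 2 = p.1 ^ 2 + p.2 ^ 2 := by
    rw [norm_sq_eq]
    have hsub : ({2 * j, 2 * j + 1} : Finset ℕ) ⊆ range d := by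
      intro n hn
      rw [mem_insert, mem_singleton] at hn
      rw [mem_range]
      omega
    rw [← Finset.sum_subset hsub, Finset.sum_pair (by omega), co_emb_fst j p h,
      co_emb_snd j p h]
    intro n _ hn
    rw [mem_insert, mem_singleton, not_or] at hn
    rw [co_emb_of_ne j p n hn.1 hn.2]
    exact zero_pow two_ne_zero
  have h2 : ‖emb (d := d) j p‖ ^ 2 ≤ 1 ^ 2 := by
    rw [h1, one_pow]
    exact hp
  exact le_of_sq_le_sq h2 zero_le_one

/-- squared distance to `c` in the first `2j` coordinates -/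
noncomputable def fK (j : ℕ) (c z : EuclideanSpace ℝ (Fin d)) : ℝ :=
  ∑ n ∈ range (2 * j), (co z n - co c n) ^ 2

/-- squared distance to `c` in the coordinates `2j`, `2j+1` -/
noncomputable def gK (j : ℕ) (c z : EuclideanSpace ℝ (Fin d)) : ℝ :=
  (co z (2 * j) - co c (2 * j)) ^ 2 + (co z (2 * j + 1) - co c (2 * j + 1)) ^ 2

lemma fK_succ (j : ℕ) (c z : EuclideanSpace ℝ (Fin d)) :
    fK (j + 1) c z = fK j c z + gK j c z := by
  unfold fK gK
  rw [show 2 * (j + 1) = 2 * j + 1 + 1 by ring, Finset.sum_range_succ, Finset.sum_range_succ,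
    add_assoc]

lemma fK_one (c z : EuclideanSpace ℝ (Fin d)) : fK 1 c z = gK 0 c z := by
  rw [fK_succ]
  unfold fK
  rw [mul_zero, Finset.sum_range_zero, zero_add]

lemma fK_add_emb (j : ℕ) (c z : EuclideanSpace ℝ (Fin d)) (p : ℝ × ℝ) :
    fK j c (z + emb j p) = fK j c z := by
  unfold fK
  refine Finset.sum_congr rfl (fun n hn => ?_)
  rw [mem_range] at hn
  rw [co_add, co_emb_of_ne j p n (by omega) (by omega), add_zero]

lemma fK_le_norm (j : ℕ) (c z : EuclideanSpace ℝ (Fin d)) (h : 2 * j ≤ d) :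
    fK j c z ≤ ‖z - c‖ ^ 2 := by
  rw [norm_sq_eq]
  unfold fK
  calc ∑ n ∈ range (2 * j), (co z n - co c n) ^ 2
      ≤ ∑ n ∈ range d, (co z n - co c n) ^ 2 :=
        Finset.sum_le_sum_of_subset_of_nonneg (Finset.range_mono h) (fun _ _ _ => sq_nonneg _)
    _ = ∑ n ∈ range d, co (z - c) n ^ 2 := by
        refine Finset.sum_congr rfl (fun n _ => ?_)
        rw [co_sub]

lemma kills_gK (ρ2 : ℝ) (L : List (ℝ × ℝ))
    (hkill : ∀ c x : ℝ × ℝ,
      ¬ Stay (fun p : ℝ × ℝ => (p.1 - c.1) ^ 2 + (p.2 - c.2) ^ 2 ≤ ρ2) L x)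
    (j : ℕ) (h : 2 * j + 1 < d) (c x : EuclideanSpace ℝ (Fin d)) :
    ¬ Stay (fun z => gK j c z ≤ ρ2) (L.map (emb j)) x := by
  intro hs
  have h1 := Stay.map
    (fun z : EuclideanSpace ℝ (Fin d) => ((co z (2 * j), co z (2 * j + 1)) : ℝ × ℝ))
    (by intro a b; rw [co_add, co_add]; rfl) (by intro a b; rw [co_sub, co_sub]; rfl)
    (P := fun p : ℝ × ℝ => (p.1 - co c (2 * j)) ^ 2 + (p.2 - co c (2 * j + 1)) ^ 2 ≤ ρ2) hs
  rw [List.map_map] at h1
  have h2 : (fun z : EuclideanSpace ℝ (Fin d) => ((co z (2 * j), co z (2 * j + 1)) : ℝ × ℝ)) ∘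
      emb j = id := by
    funext p
    show (co (emb (d := d) j p) (2 * j), co (emb (d := d) j p) (2 * j + 1)) = p
    rw [co_emb_fst j p h, co_emb_snd j p h]
  rw [h2, List.map_id] at h1
  exact hkill (co c (2 * j), co c (2 * j + 1)) _ h1

theorem euclid_killer_aux (ρ2 : ℝ) (L : List (ℝ × ℝ)) (hL : ∀ p ∈ L, p.1 ^ 2 + p.2 ^ 2 ≤ 1)
    (hkill : ∀ c x : ℝ × ℝ,
      ¬ Stay (fun p : ℝ × ℝ => (p.1 - c.1) ^ 2 + (p.2 - c.2) ^ 2 ≤ ρ2) L x)
    (d : ℕ) : ∀ k, 1 ≤ k → 2 * k ≤ d →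
      ∃ l : List (EuclideanSpace ℝ (Fin d)), (∀ v ∈ l, ‖v‖ ≤ 1) ∧
        ∀ c x : EuclideanSpace ℝ (Fin d), ¬ Stay (fun z => fK k c z ≤ (k : ℝ) * ρ2) l x := by
  intro k hk1
  induction k, hk1 using Nat.le_induction with
  | base =>
    intro hk
    refine ⟨L.map (emb 0), ?_, ?_⟩
    · intro v hv
      rw [List.mem_map] at hv
      obtain ⟨p, hp, rfl⟩ := hv
      exact norm_emb_le 0 p (by omega) (hL p hp)
    · intro c x hs
      apply kills_gK ρ2 L hkill 0 (by omega) c x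
      apply Stay.mono _ hs
      intro z hz
      rw [fK_one, Nat.cast_one, one_mul] at hz
      exact hz
  | succ k hk1 ih =>
    intro hk
    obtain ⟨A, hA1, hA2⟩ := ih (by omega)
    refine ⟨interleave A (L.map (emb k)), ?_, ?_⟩
    · intro v hv
      rcases mem_interleave hv with h | h
      · exact hA1 v h
      · rw [List.mem_map] at h
        obtain ⟨p, hp, rfl⟩ := h
        exact norm_emb_le k p (by omega) (hL p hp)
    · intro c x hs
      apply kills_interleave (fK k c) (gK k c) ((k : ℝ) * ρ2) ρ2 A (L.map (emb k)) ?_ (hA2 c)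
        (kills_gK ρ2 L hkill k (by omega) c) x
      · apply Stay.mono _ hs
        intro z hz
        rw [fK_succ, Nat.cast_add, Nat.cast_one, add_mul, one_mul] at hz
        exact hz
      · intro b hb z
        rw [List.mem_map] at hb
        obtain ⟨p, _, rfl⟩ := hb
        exact fK_add_emb k c z p

end H32

/-- Product construction in Euclidean space: from a planar list of steps of norm at most `1`
along which no signed walk stays in a disc of squared radius `ρ2`, a list of steps of norm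
at most `1` in dimension `d ≥ 2k` along which no signed walk stays in a ball of squared
radius `k * ρ2`. -/
theorem euclid_killer (ρ2 : ℝ) (L : List (ℝ × ℝ)) (hL : ∀ p ∈ L, p.1 ^ 2 + p.2 ^ 2 ≤ 1)
    (hkill : ∀ c x : ℝ × ℝ, ¬ Stay (fun p : ℝ × ℝ => (p.1 - c.1) ^ 2 + (p.2 - c.2) ^ 2 ≤ ρ2) L x)
    (d k : ℕ) (hk1 : 1 ≤ k) (hk : 2 * k ≤ d) :
    ∃ l : List (EuclideanSpace ℝ (Fin d)), (∀ v ∈ l, ‖v‖ ≤ 1) ∧
      ∀ c x : EuclideanSpace ℝ (Fin d), ¬ Stay (fun z => ‖z - c‖ ^ 2 ≤ (k : ℝ) * ρ2) l x := by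
  obtain ⟨l, hl1, hl2⟩ := H32.euclid_killer_aux ρ2 L hL hkill d k hk1 hk
  refine ⟨l, hl1, ?_⟩
  intro c x hs
  apply hl2 c x
  apply Stay.mono _ hs
  intro z hz
  exact le_trans (H32.fK_le_norm k c z hk) hz

end Vale.Agent.Lib.P262
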